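import Vale.Agent.P160.Count

namespace Vale.Agent.P160

open Finset Matrix

/-- The sign of a bit. -/
noncomputable def sgn (b : Bool) : ℝ := if b = true then 1 else -1

lemma sgn_mul_pos_iff_of_eq {b b' : Bool} {a : ℝ} (ha : a ≠ 0)
    (h : 0 < sgn b * a ↔ 0 < sgn b' * a) : b = b' := by
  rcases lt_or_gt_of_ne ha with h0 | h0 <;> cases b <;> cases b' <;> simp [sgn] at h ⊢ <;>
    first
      | (have h1 := h.mp h0; linarith)
      | (have h1 := h.mpr h0; linarith)

/-- The Erdős form of the Littlewood-Offord inequality. -/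
lemma littlewood_offord {τ : Type*} [Fintype τ] [DecidableEq τ] (a : τ → ℝ) (ha : ∀ t, a t ≠ 0)
    (r : ℝ) [DecidablePred (fun y : τ → Bool => ∑ t, sgn (y t) * a t = r)] :
    (univ.filter (fun y : τ → Bool => ∑ t, sgn (y t) * a t = r)).card
      ≤ (Fintype.card τ).choose (Fintype.card τ / 2) := by
  classical
  set f : (τ → Bool) → Finset τ := fun y => univ.filter (fun t => 0 < sgn (y t) * a t) with hf
  have hinj : Function.Injective f := by
    intro y y' h
    funext t
    apply sgn_mul_pos_iff_of_eq (ha t)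
    have := Finset.ext_iff.mp h t
    simpa [hf] using this
  set X := univ.filter (fun y : τ → Bool => ∑ t, sgn (y t) * a t = r) with hX
  have hcard : (X.image f).card = X.card := Finset.card_image_of_injective _ hinj
  rw [← hcard]
  apply IsAntichain.sperner
  intro A hA B hB hne hsub
  obtain ⟨y, hy, rfl⟩ := Finset.mem_image.mp (Finset.mem_coe.mp hA)
  obtain ⟨y', hy', rfl⟩ := Finset.mem_image.mp (Finset.mem_coe.mp hB)
  have hy1 := (Finset.mem_filter.mp hy).2
  have hy2 := (Finset.mem_filter.mp hy').2
  -- a strict inclusion gives a strictly larger sum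
  have hss : f y ⊂ f y' := Finset.ssubset_iff_subset_ne.mpr ⟨hsub, hne⟩
  obtain ⟨t0, ht0, ht0'⟩ := (Finset.ssubset_iff_of_subset hsub).mp hss
  have key : ∀ b : Bool, ∀ t, sgn b * a t = |a t| ∨ sgn b * a t = - |a t| := by
    intro b t
    rcases le_total 0 (a t) with h | h <;> cases b <;> simp [sgn, abs_of_nonneg, abs_of_nonpos, h]
  have hle : ∀ t ∈ (univ : Finset τ), sgn (y t) * a t ≤ sgn (y' t) * a t := by
    intro t _
    have hat := abs_pos.mpr (ha t)
    by_cases ht : t ∈ f y
    · have ht2 := hsub ht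
      simp only [hf, Finset.mem_filter, mem_univ, true_and] at ht ht2
      rcases key (y t) t with h1 | h1 <;> rcases key (y' t) t with h2 | h2 <;> linarith
    · simp only [hf, Finset.mem_filter, mem_univ, true_and, not_lt] at ht
      rcases key (y t) t with h1 | h1 <;> rcases key (y' t) t with h2 | h2 <;> linarith
  have hlt : sgn (y t0) * a t0 < sgn (y' t0) * a t0 := by
    have hat := abs_pos.mpr (ha t0)
    simp only [hf, Finset.mem_filter, mem_univ, true_and, not_lt] at ht0 ht0'
    rcases key (y t0) t0 with h1 | h1 <;> rcases key (y' t0) t0 with h2 | h2 <;> linarith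
  have := Finset.sum_lt_sum hle ⟨t0, mem_univ _, hlt⟩
  rw [hy1, hy2] at this
  exact lt_irrefl _ this

/-- Fibrewise counting over independent blocks of coordinates. -/
lemma block_count {α ι τ : Type*} [Fintype α] [DecidableEq α] [Fintype ι] [DecidableEq ι]
    [Fintype τ] [DecidableEq τ] (pos : ι × τ → α) (hpos : Function.Injective pos)
    (E : Finset (α → Bool)) (c : ℕ)
    (h : ∀ ω₀ ∈ E, ∀ i, ((E.filter (fun ω => ∀ p, p ∉ Set.range pos → ω p = ω₀ p)).image
      (fun ω (t : τ) => ω (pos (i, t)))).card ≤ c) :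
    E.card * (2 ^ Fintype.card τ) ^ Fintype.card ι ≤ 2 ^ Fintype.card α * c ^ Fintype.card ι := by
  classical
  set Out := {p : α // p ∉ Set.range pos} with hOut
  -- the blocks seen from an outside assignment
  set B : ι → (Out → Bool) → Finset (τ → Bool) := fun i x =>
    (E.filter (fun ω => ∀ p : Out, ω p.1 = x p)).image (fun ω (t : τ) => ω (pos (i, t))) with hB
  have hBcard : ∀ i x, (B i x).card ≤ c := by
    intro i x
    by_cases hne : (E.filter (fun ω => ∀ p : Out, ω p.1 = x p)).Nonempty
    · obtain ⟨ω₀, hω₀⟩ := hne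
      obtain ⟨hω₀E, hω₀x⟩ := Finset.mem_filter.mp hω₀
      refine le_trans (Finset.card_le_card ?_) (h ω₀ hω₀E i)
      apply Finset.image_subset_image
      intro ω hω
      obtain ⟨hωE, hωx⟩ := Finset.mem_filter.mp hω
      refine Finset.mem_filter.mpr ⟨hωE, ?_⟩
      intro p hp
      rw [hωx ⟨p, hp⟩, hω₀x ⟨p, hp⟩]
    · rw [Finset.not_nonempty_iff_eq_empty] at hne
      simp [hB, hne]
  set Tgt : Finset (Σ _x : Out → Bool, ι → τ → Bool) :=
    (univ : Finset (Out → Bool)).sigma (fun x => Fintype.piFinset (fun i => B i x)) with hTgt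
  set Φ : (α → Bool) → (Σ _x : Out → Bool, ι → τ → Bool) :=
    fun ω => ⟨fun p => ω p.1, fun i t => ω (pos (i, t))⟩ with hΦ
  have hΦinj : Function.Injective Φ := by
    intro ω ω' heq
    have h1 : (fun p : Out => ω p.1) = fun p : Out => ω' p.1 := congrArg Sigma.fst heq
    have h2 : (fun i t => ω (pos (i, t))) = fun i t => ω' (pos (i, t)) := by
      have := heq
      simp only [hΦ, Sigma.mk.injEq] at this
      exact eq_of_heq this.2
    funext p
    by_cases hp : p ∈ Set.range pos
    · obtain ⟨⟨i, t⟩, rfl⟩ := hp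
      exact congrFun (congrFun h2 i) t
    · exact congrFun h1 ⟨p, hp⟩
  have hmaps : ∀ ω ∈ E, Φ ω ∈ Tgt := by
    intro ω hω
    refine Finset.mem_sigma.mpr ⟨mem_univ _, ?_⟩
    refine Fintype.mem_piFinset.mpr ?_
    intro i
    exact Finset.mem_image.mpr ⟨ω, Finset.mem_filter.mpr ⟨hω, fun _ => rfl⟩, rfl⟩
  have h1 : E.card ≤ Tgt.card :=
    Finset.card_le_card_of_injOn Φ hmaps hΦinj.injOn
  have h2 : Tgt.card ≤ 2 ^ Fintype.card Out * c ^ Fintype.card ι := by
    rw [hTgt, Finset.card_sigma]
    calc ∑ x : Out → Bool, (Fintype.piFinset (fun i => B i x)).card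
        ≤ ∑ _x : Out → Bool, c ^ Fintype.card ι := by
          apply Finset.sum_le_sum
          intro x _
          rw [Fintype.card_piFinset]
          calc ∏ i, (B i x).card ≤ ∏ _i : ι, c := Finset.prod_le_prod' (fun i _ => hBcard i x)
            _ = c ^ Fintype.card ι := by simp
      _ = 2 ^ Fintype.card Out * c ^ Fintype.card ι := by
          simp [Finset.card_univ]
  have h3 : Fintype.card Out + Fintype.card τ * Fintype.card ι = Fintype.card α := by
    have h4 : Fintype.card {p // p ∈ Set.range pos} = Fintype.card ι * Fintype.card τ := by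
      have h5 := Set.card_range_of_injective hpos
      rw [Fintype.card_prod] at h5
      rw [← h5]
    have h6 : Fintype.card Out = Fintype.card α - Fintype.card {p // p ∈ Set.range pos} :=
      Fintype.card_subtype_compl _
    have h7 : Fintype.card ι * Fintype.card τ ≤ Fintype.card α := by
      have := Fintype.card_le_of_injective pos hpos
      rwa [Fintype.card_prod] at this
    rw [h6, h4, mul_comm (Fintype.card τ)]
    omega
  calc E.card * (2 ^ Fintype.card τ) ^ Fintype.card ι
      ≤ (2 ^ Fintype.card Out * c ^ Fintype.card ι) * (2 ^ Fintype.card τ) ^ Fintype.card ι :=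
        Nat.mul_le_mul_right _ (h1.trans h2)
    _ = 2 ^ (Fintype.card Out + Fintype.card τ * Fintype.card ι) * c ^ Fintype.card ι := by
        rw [pow_add, pow_mul]; ring
    _ = 2 ^ Fintype.card α * c ^ Fintype.card ι := by rw [h3]

end Vale.Agent.P160
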