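import Vale.Agent.P160.Select

namespace Vale.Agent.P160

open Finset Matrix

/-- Subsets of size at most `m`. -/
def smallSets (n m : ℕ) : Finset (Finset (Fin n)) := univ.filter (fun S => S.card ≤ m)

open Classical in
lemma sparse_count (n m : ℕ) :
    (univ.filter (fun ω : Config n => HasSparseKernel ω m)).card * 2 ^ n
      ≤ (smallSets n m).card ^ 2 * 4 ^ m * 2 ^ Fintype.card (Sym2 (Fin n)) := by
  set P := ((smallSets n m) ×ˢ (smallSets n m)).filter (fun p => p.1.Nonempty) with hP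
  have hsub : (univ.filter (fun ω : Config n => HasSparseKernel ω m))
      ⊆ P.biUnion (fun p => univ.filter (fun ω : Config n => Ev p.1 p.2 ω)) := by
    intro ω hω
    obtain ⟨S, R, hne, hS, hR, hev⟩ := exists_ev (Finset.mem_filter.mp hω).2
    refine Finset.mem_biUnion.mpr ⟨(S, R), ?_, by simpa using hev⟩
    simp [hP, smallSets, hS, hR, hne]
  have hone : ∀ p ∈ P, (univ.filter (fun ω : Config n => Ev p.1 p.2 ω)).card * 2 ^ n
      ≤ 4 ^ m * 2 ^ Fintype.card (Sym2 (Fin n)) := by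
    rintro ⟨S, R⟩ hp
    simp only [hP, smallSets, Finset.mem_filter, Finset.mem_product, mem_univ, true_and] at hp
    obtain ⟨⟨hS, hR⟩, hne⟩ := hp
    have h1 := ev_card (S := S) (R := R) hne
    have h2 : n ≤ (univ \ (R ∪ S)).card + 2 * m := by
      have h3 : (univ \ (R ∪ S)).card = n - (R ∪ S).card := by
        rw [Finset.card_sdiff_of_subset (Finset.subset_univ _)]
        simp
      have h4 : (R ∪ S).card ≤ R.card + S.card := Finset.card_union_le _ _
      omega
    calc (univ.filter (fun ω : Config n => Ev S R ω)).card * 2 ^ n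
        ≤ (univ.filter (fun ω : Config n => Ev S R ω)).card
            * 2 ^ ((univ \ (R ∪ S)).card + 2 * m) :=
          Nat.mul_le_mul_left _ (Nat.pow_le_pow_right (by norm_num) h2)
      _ = ((univ.filter (fun ω : Config n => Ev S R ω)).card * 2 ^ (univ \ (R ∪ S)).card)
            * 4 ^ m := by
          rw [pow_add, pow_mul]; norm_num; ring
      _ ≤ 2 ^ Fintype.card (Sym2 (Fin n)) * 4 ^ m := Nat.mul_le_mul_right _ h1
      _ = 4 ^ m * 2 ^ Fintype.card (Sym2 (Fin n)) := by ring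
  have hPcard : P.card ≤ (smallSets n m).card ^ 2 := by
    calc P.card ≤ ((smallSets n m) ×ˢ (smallSets n m)).card := Finset.card_filter_le _ _
      _ = (smallSets n m).card ^ 2 := by rw [Finset.card_product, sq]
  calc (univ.filter (fun ω : Config n => HasSparseKernel ω m)).card * 2 ^ n
      ≤ (P.biUnion (fun p => univ.filter (fun ω : Config n => Ev p.1 p.2 ω))).card * 2 ^ n :=
        Nat.mul_le_mul_right _ (Finset.card_le_card hsub)
    _ ≤ (∑ p ∈ P, (univ.filter (fun ω : Config n => Ev p.1 p.2 ω)).card) * 2 ^ n :=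
        Nat.mul_le_mul_right _ Finset.card_biUnion_le
    _ = ∑ p ∈ P, (univ.filter (fun ω : Config n => Ev p.1 p.2 ω)).card * 2 ^ n :=
        Finset.sum_mul _ _ _
    _ ≤ ∑ _p ∈ P, 4 ^ m * 2 ^ Fintype.card (Sym2 (Fin n)) := Finset.sum_le_sum hone
    _ = P.card * (4 ^ m * 2 ^ Fintype.card (Sym2 (Fin n))) := by
        rw [Finset.sum_const, smul_eq_mul]
    _ ≤ (smallSets n m).card ^ 2 * (4 ^ m * 2 ^ Fintype.card (Sym2 (Fin n))) :=
        Nat.mul_le_mul_right _ hPcard
    _ = (smallSets n m).card ^ 2 * 4 ^ m * 2 ^ Fintype.card (Sym2 (Fin n)) := by ring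

lemma smallSets_bound (n m : ℕ) {δ : ℝ} (h0 : 0 < δ) (h1 : δ ≤ 1) :
    ((smallSets n m).card : ℝ) * δ ^ m ≤ (1 + δ) ^ n := by
  have h2 : ∑ t ∈ (univ : Finset (Fin n)).powerset, δ ^ t.card * 1 ^ (n - t.card) = (δ + 1) ^ n := by
    have := Finset.sum_pow_mul_eq_add_pow δ (1 : ℝ) (univ : Finset (Fin n))
    simpa using this
  rw [add_comm 1 δ, ← h2]
  simp only [one_pow, mul_one, Finset.powerset_univ]
  calc ((smallSets n m).card : ℝ) * δ ^ m
      = ∑ _t ∈ smallSets n m, δ ^ m := by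
        rw [Finset.sum_const, nsmul_eq_mul]
    _ ≤ ∑ t ∈ smallSets n m, δ ^ t.card := by
        apply Finset.sum_le_sum
        intro t ht
        have ht' : t.card ≤ m := (Finset.mem_filter.mp ht).2
        exact pow_le_pow_of_le_one h0.le h1 ht'
    _ ≤ ∑ t : Finset (Fin n), δ ^ t.card := by
        apply Finset.sum_le_sum_of_subset_of_nonneg (Finset.subset_univ _)
        intro t _ _
        positivity

/-- The exponential rate of the sparse kernel event is at most one half. -/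
lemma sparse_rate {ε : ℝ} (hε : 0 < ε) :
    ∃ α : ℝ, 0 < α ∧ ∀ n m : ℕ, (m : ℝ) ≤ α * n →
      ∀ (F : Finset (Config n)), (∀ ω ∈ F, HasSparseKernel ω m) →
      (F.card : ℝ) ≤ (1 / 2 + ε) ^ n * 2 ^ Fintype.card (Sym2 (Fin n)) := by
  classical
  set δ : ℝ := min 1 (ε / 3) with hδ
  have hδ0 : 0 < δ := lt_min one_pos (by positivity)
  have hδ1 : δ ≤ 1 := min_le_left _ _
  have hδ2 : δ ≤ ε / 3 := min_le_right _ _
  set K : ℝ := 2 / δ with hK
  have hK1 : 1 < K := by
    rw [hK, lt_div_iff₀ hδ0]; linarith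
  set y : ℝ := (1 + 2 * ε) / (1 + ε) with hy
  have hy1 : 1 < y := by
    rw [hy, lt_div_iff₀ (by positivity)]; linarith
  have hlogK : 0 < Real.log K := Real.log_pos hK1
  have hlogy : 0 < Real.log y := Real.log_pos hy1
  refine ⟨Real.log y / (2 * Real.log K), by positivity, ?_⟩
  intro n m hm F hF
  have hKpow : K ^ (2 * m) ≤ y ^ n := by
    have h1 : (2 * m : ℝ) * Real.log K ≤ n * Real.log y := by
      have h2 : (m : ℝ) * (2 * Real.log K) ≤ Real.log y * n := by
        have := mul_le_mul_of_nonneg_right hm (by positivity : 0 ≤ 2 * Real.log K)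
        calc (m : ℝ) * (2 * Real.log K) ≤ Real.log y / (2 * Real.log K) * n * (2 * Real.log K) := this
          _ = Real.log y * n := by field_simp
      linarith
    have hK0 : 0 < K := by linarith
    have hy0 : 0 < y := by linarith
    have e1 : K ^ (2 * m) = Real.exp ((2 * m : ℝ) * Real.log K) := by
      rw [← Real.rpow_natCast, Real.rpow_def_of_pos hK0]
      congr 1
      push_cast
      ring
    have e2 : y ^ n = Real.exp ((n : ℝ) * Real.log y) := by
      rw [← Real.rpow_natCast, Real.rpow_def_of_pos hy0]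
      congr 1
      ring
    rw [e1, e2]
    exact Real.exp_le_exp.mpr h1
  have hcount := sparse_count n m
  have hFsub : F ⊆ univ.filter (fun ω : Config n => HasSparseKernel ω m) := by
    intro ω hω
    exact Finset.mem_filter.mpr ⟨mem_univ _, hF ω hω⟩
  have hFcard : F.card * 2 ^ n
      ≤ (smallSets n m).card ^ 2 * 4 ^ m * 2 ^ Fintype.card (Sym2 (Fin n)) :=
    (Nat.mul_le_mul_right _ (Finset.card_le_card hFsub)).trans hcount
  have hFreal : (F.card : ℝ) * 2 ^ n
      ≤ ((smallSets n m).card : ℝ) ^ 2 * 4 ^ m * 2 ^ Fintype.card (Sym2 (Fin n)) := by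
    exact_mod_cast hFcard
  have hB := smallSets_bound n m hδ0 hδ1
  have hB2 : (((smallSets n m).card : ℝ)) ^ 2 * 4 ^ m ≤ ((1 + δ) ^ 2) ^ n * y ^ n := by
    have h1 : ((smallSets n m).card : ℝ) ≤ (1 + δ) ^ n / δ ^ m := by
      rw [le_div_iff₀ (by positivity)]; exact hB
    have h2 : ((smallSets n m).card : ℝ) ^ 2 ≤ ((1 + δ) ^ n / δ ^ m) ^ 2 :=
      pow_le_pow_left₀ (by positivity) h1 2
    calc ((smallSets n m).card : ℝ) ^ 2 * 4 ^ m
        ≤ ((1 + δ) ^ n / δ ^ m) ^ 2 * 4 ^ m :=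
          mul_le_mul_of_nonneg_right h2 (by positivity)
      _ = ((1 + δ) ^ 2) ^ n * K ^ (2 * m) := by
          have hKe : K ^ (2 * m) = 4 ^ m / (δ ^ m) ^ 2 := by
            rw [hK, pow_mul, div_pow]
            norm_num
            rw [pow_right_comm]
            ring_nf
          have e : ((1 + δ) ^ 2) ^ n = ((1 + δ) ^ n) ^ 2 := by
            rw [← pow_mul, ← pow_mul, mul_comm]
          rw [hKe, e, div_pow]
          ring
      _ ≤ ((1 + δ) ^ 2) ^ n * y ^ n :=
          mul_le_mul_of_nonneg_left hKpow (by positivity)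
  have hbase : (1 + δ) ^ 2 * y ≤ 1 + 2 * ε := by
    have h1 : (1 + δ) ^ 2 ≤ 1 + ε := by nlinarith
    calc (1 + δ) ^ 2 * y ≤ (1 + ε) * y := mul_le_mul_of_nonneg_right h1 (by linarith)
      _ = 1 + 2 * ε := by rw [hy]; field_simp
  have hfinal : (F.card : ℝ) * 2 ^ n ≤ (1 + 2 * ε) ^ n * 2 ^ Fintype.card (Sym2 (Fin n)) := by
    calc (F.card : ℝ) * 2 ^ n
        ≤ ((smallSets n m).card : ℝ) ^ 2 * 4 ^ m * 2 ^ Fintype.card (Sym2 (Fin n)) := hFreal
      _ ≤ (((1 + δ) ^ 2) ^ n * y ^ n) * 2 ^ Fintype.card (Sym2 (Fin n)) :=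
          mul_le_mul_of_nonneg_right hB2 (by positivity)
      _ = ((1 + δ) ^ 2 * y) ^ n * 2 ^ Fintype.card (Sym2 (Fin n)) := by rw [mul_pow]
      _ ≤ (1 + 2 * ε) ^ n * 2 ^ Fintype.card (Sym2 (Fin n)) :=
          mul_le_mul_of_nonneg_right
            (pow_le_pow_left₀ (by have := sq_nonneg (1 + δ); positivity) hbase n) (by positivity)
  have h2n : (0 : ℝ) < 2 ^ n := by positivity
  have e : (1 / 2 + ε) ^ n * 2 ^ n = (1 + 2 * ε) ^ n := by
    rw [← mul_pow]; congr 1; ring
  have : (F.card : ℝ) * 2 ^ n ≤ ((1 / 2 + ε) ^ n * 2 ^ Fintype.card (Sym2 (Fin n))) * 2 ^ n := by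
    calc (F.card : ℝ) * 2 ^ n ≤ (1 + 2 * ε) ^ n * 2 ^ Fintype.card (Sym2 (Fin n)) := hfinal
      _ = ((1 / 2 + ε) ^ n * 2 ^ Fintype.card (Sym2 (Fin n))) * 2 ^ n := by
          rw [← e]; ring
  exact le_of_mul_le_mul_right this h2n

end Vale.Agent.P160
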