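import Mathlib

/-!
Symmetric sign matrices: one independent sign for every unordered pair {i, j} with repetition
allowed, so that the uniform measure on configurations is the law of the symmetric random sign
matrix (entries on and above the diagonal independent and uniform).
-/

namespace Vale.Agent.P160

open Finset Matrix

/-- A configuration: one bit for every unordered pair of indices (diagonal included). -/
abbrev Config (n : ℕ) := Sym2 (Fin n) → Bool

/-- The symmetric sign matrix of a configuration. -/
noncomputable def signMatrix {n : ℕ} (ω : Config n) : Matrix (Fin n) (Fin n) ℝ :=
  fun i j => if ω s(i, j) = true then 1 else -1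

/-- The number of nonzero coordinates of a vector. -/
noncomputable def suppCard {n : ℕ} (v : Fin n → ℝ) : ℕ :=
  by classical exact (univ.filter fun i => v i ≠ 0).card

/-- The matrix of the configuration has a nonzero real kernel vector with at most `m` nonzero
coordinates. -/
def HasSparseKernel {n : ℕ} (ω : Config n) (m : ℕ) : Prop :=
  ∃ v : Fin n → ℝ, v ≠ 0 ∧ signMatrix ω *ᵥ v = 0 ∧ suppCard v ≤ m

end Vale.Agent.P160
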