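import Vale.Agent.P160.Blocks

namespace Vale.Agent.P160

open Finset Matrix

/-- A fixed vector that is nonzero on `T`: the probability that it is killed by the matrix is at
most (Littlewood-Offord at `|T|`) to the power `n - |T|`. -/
lemma fixed_vector_count {n : ℕ} (v : Fin n → ℝ) (T : Finset (Fin n)) (hT : ∀ t ∈ T, v t ≠ 0)
    [DecidablePred (fun ω : Config n => signMatrix ω *ᵥ v = 0)] :
    (univ.filter (fun ω : Config n => signMatrix ω *ᵥ v = 0)).card
        * (2 ^ T.card) ^ (n - T.card)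
      ≤ 2 ^ Fintype.card (Sym2 (Fin n)) * (T.card.choose (T.card / 2)) ^ (n - T.card) := by
  classical
  let ι := {i : Fin n // i ∉ T}
  let τ := {t : Fin n // t ∈ T}
  have hι : Fintype.card ι = n - T.card := by
    simp only [ι]
    rw [Fintype.card_subtype_compl]
    simp
  have hτ : Fintype.card τ = T.card := by
    simp [τ]
  let pos : ι × τ → Sym2 (Fin n) := fun p => s(p.1.1, p.2.1)
  have hpos : Function.Injective pos := by
    rintro ⟨⟨i, hi⟩, ⟨t, ht⟩⟩ ⟨⟨i', hi'⟩, ⟨t', ht'⟩⟩ h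
    rcases Sym2.eq_iff.mp h with ⟨h1, h2⟩ | ⟨h1, h2⟩
    · subst h1; subst h2; rfl
    · simp only at h1 h2
      subst h1
      exact absurd ht' hi
  have hmain := block_count (α := Sym2 (Fin n)) pos hpos
    (univ.filter (fun ω : Config n => signMatrix ω *ᵥ v = 0)) (T.card.choose (T.card / 2)) ?_
  · rw [hι, hτ] at hmain
    exact hmain
  intro ω₀ hω₀ i
  have hω₀0 : signMatrix ω₀ *ᵥ v = 0 := (Finset.mem_filter.mp hω₀).2
  set r : ℝ := - ∑ j ∈ Tᶜ, signMatrix ω₀ i.1 j * v j with hr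
  have hLO := littlewood_offord (τ := τ) (fun t => v t.1) (fun t => hT t.1 t.2) r
  rw [hτ] at hLO
  refine le_trans (Finset.card_le_card ?_) hLO
  intro y hy
  obtain ⟨ω, hω, rfl⟩ := Finset.mem_image.mp hy
  obtain ⟨hωE, hωag⟩ := Finset.mem_filter.mp hω
  have hω0 : signMatrix ω *ᵥ v = 0 := (Finset.mem_filter.mp hωE).2
  refine Finset.mem_filter.mpr ⟨mem_univ _, ?_⟩
  -- the i-th row equation
  have hrow : ∑ j, signMatrix ω i.1 j * v j = 0 := by
    have := congrFun hω0 i.1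
    simpa [Matrix.mulVec, dotProduct] using this
  rw [← Finset.sum_add_sum_compl T] at hrow
  have hout : ∑ j ∈ Tᶜ, signMatrix ω i.1 j * v j = ∑ j ∈ Tᶜ, signMatrix ω₀ i.1 j * v j := by
    apply Finset.sum_congr rfl
    intro j hj
    have hj' : j ∉ T := Finset.mem_compl.mp hj
    have : ω s(i.1, j) = ω₀ s(i.1, j) := by
      apply hωag
      rintro ⟨⟨a, b⟩, hab⟩
      rcases Sym2.eq_iff.mp hab with ⟨h1, h2⟩ | ⟨h1, h2⟩
      · exact hj' (h2 ▸ b.2)
      · exact i.2 (h2 ▸ b.2)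
    simp only [signMatrix_apply, this]
  have hin : ∑ t : τ, sgn (ω (pos (i, t))) * v t.1 = ∑ j ∈ T, signMatrix ω i.1 j * v j := by
    rw [← Finset.sum_coe_sort T (fun j => signMatrix ω i.1 j * v j)]
    rfl
  rw [hin, hr]
  linarith

lemma centralBinom_sq_le (k : ℕ) : (Nat.centralBinom k) ^ 2 * (2 * k + 1) ≤ 16 ^ k := by
  induction k with
  | zero => simp
  | succ k ih =>
    have h := Nat.succ_mul_centralBinom_succ k
    -- (k+1) cb(k+1) = 2 (2k+1) cb(k)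
    have h1 : (k + 1) ^ 2 * ((Nat.centralBinom (k + 1)) ^ 2 * (2 * (k + 1) + 1))
        ≤ (k + 1) ^ 2 * 16 ^ (k + 1) := by
      calc (k + 1) ^ 2 * ((Nat.centralBinom (k + 1)) ^ 2 * (2 * (k + 1) + 1))
          = ((k + 1) * Nat.centralBinom (k + 1)) ^ 2 * (2 * k + 3) := by ring
        _ = (2 * (2 * k + 1) * Nat.centralBinom k) ^ 2 * (2 * k + 3) := by rw [h]
        _ = ((Nat.centralBinom k) ^ 2 * (2 * k + 1)) * (4 * (2 * k + 1) * (2 * k + 3)) := by ring
        _ ≤ 16 ^ k * (4 * (2 * k + 1) * (2 * k + 3)) := Nat.mul_le_mul_right _ ih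
        _ ≤ 16 ^ k * (16 * (k + 1) ^ 2) := by
            apply Nat.mul_le_mul_left
            nlinarith
        _ = (k + 1) ^ 2 * 16 ^ (k + 1) := by ring
    exact Nat.le_of_mul_le_mul_left h1 (by positivity)

/-- For every `σ ∈ (0, 1]` there is a large even support size at which the Littlewood-Offord ratio
is at most `σ ^ 2`. -/
lemma exists_even_ratio {σ : ℝ} (hσ : 0 < σ) :
    ∃ k : ℕ, 0 < k ∧ ((2 * k).choose (2 * k / 2) : ℝ) ≤ σ ^ 2 * 2 ^ (2 * k) := by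
  obtain ⟨k, hk⟩ := exists_nat_gt (1 / σ ^ 4 + 1)
  have hk0 : (0 : ℝ) < k := by
    have : (0 : ℝ) < 1 / σ ^ 4 := by positivity
    linarith
  have hkpos : 0 < k := by exact_mod_cast hk0
  refine ⟨k, hkpos, ?_⟩
  have h2 : 2 * k / 2 = k := by omega
  rw [h2]
  have hcb : (2 * k).choose k = Nat.centralBinom k := (Nat.centralBinom_eq_two_mul_choose k).symm
  rw [hcb]
  have h3 := centralBinom_sq_le k
  have h4 : ((Nat.centralBinom k : ℝ)) ^ 2 * (2 * k + 1) ≤ 16 ^ k := by exact_mod_cast h3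
  have h5 : (1 : ℝ) / σ ^ 4 ≤ 2 * k + 1 := by
    have : (0 : ℝ) < k := hk0
    linarith
  have h6 : (Nat.centralBinom k : ℝ) ^ 2 ≤ σ ^ 4 * 16 ^ k := by
    have hσ4 : (0 : ℝ) < σ ^ 4 := by positivity
    have h7 : (1 : ℝ) ≤ σ ^ 4 * (2 * k + 1) := by
      rw [div_le_iff₀ hσ4] at h5
      linarith
    have h8 : (0 : ℝ) ≤ (Nat.centralBinom k : ℝ) ^ 2 := by positivity
    calc (Nat.centralBinom k : ℝ) ^ 2 ≤ (Nat.centralBinom k : ℝ) ^ 2 * (σ ^ 4 * (2 * k + 1)) := by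
          nlinarith
      _ = σ ^ 4 * ((Nat.centralBinom k : ℝ) ^ 2 * (2 * k + 1)) := by ring
      _ ≤ σ ^ 4 * 16 ^ k := mul_le_mul_of_nonneg_left h4 hσ4.le
  have h9 : (σ ^ 2 * 2 ^ (2 * k)) ^ 2 = σ ^ 4 * 16 ^ k := by
    rw [mul_pow, ← pow_mul, ← pow_mul]
    have : (2 : ℝ) ^ (2 * k * 2) = 16 ^ k := by
      rw [show 2 * k * 2 = 4 * k by ring, pow_mul]; norm_num
    rw [this]
  rw [← h9] at h6
  exact le_of_sq_le_sq h6 (by positivity)

end Vale.Agent.P160
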