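import Vale.Agent.P160.Defs

namespace Vale.Agent.P160

open Finset Matrix

lemma card_mul_two_pow_le {α : Type*} [Fintype α] [DecidableEq α]
    (E : Finset (α → Bool)) (G : Finset α)
    (h : ∀ ω ∈ E, ∀ ω' ∈ E, (∀ p, p ∉ G → ω p = ω' p) → ω = ω') :
    E.card * 2 ^ G.card ≤ 2 ^ Fintype.card α := by
  have hinj : Set.InjOn (fun ω : α → Bool => (fun p : {p // p ∉ G} => ω p.1)) (E : Set (α → Bool)) := by
    intro ω hω ω' hω' heq
    refine h ω hω ω' hω' ?_
    intro p hp
    exact congrFun heq ⟨p, hp⟩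
  have h1 := Finset.card_le_card_of_injOn
    (s := E) (t := (univ : Finset ({p // p ∉ G} → Bool))) _ (fun _ _ => mem_univ _) hinj
  have h2 : (univ : Finset ({p // p ∉ G} → Bool)).card = 2 ^ (Fintype.card α - G.card) := by
    rw [Finset.card_univ, Fintype.card_fun, Fintype.card_bool]
    congr 1
    rw [Fintype.card_subtype_compl, Fintype.card_coe]
  have h3 : G.card ≤ Fintype.card α := Finset.card_le_univ G
  calc E.card * 2 ^ G.card ≤ 2 ^ (Fintype.card α - G.card) * 2 ^ G.card :=
        Nat.mul_le_mul_right _ (by omega)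
    _ = 2 ^ Fintype.card α := by
        rw [← pow_add]; congr 1; omega

lemma signMatrix_apply {n : ℕ} (ω : Config n) (i j : Fin n) :
    signMatrix ω i j = if ω s(i, j) = true then 1 else -1 := rfl

lemma signMatrix_ne_zero {n : ℕ} (ω : Config n) (i j : Fin n) : signMatrix ω i j ≠ 0 := by
  rw [signMatrix_apply]; split_ifs <;> norm_num

lemma eq_of_signMatrix_eq {n : ℕ} {ω ω' : Config n} {i j : Fin n}
    (h : signMatrix ω i j = signMatrix ω' i j) : ω s(i, j) = ω' s(i, j) := by
  rw [signMatrix_apply, signMatrix_apply] at h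
  cases h1 : ω s(i, j) <;> cases h2 : ω' s(i, j) <;> simp [h1, h2] at h ⊢ <;> norm_num at h

/-- The event attached to a support `S` and a set of rows `R`: there is a kernel vector with support
exactly `S`, and up to scaling it is the only vector supported on `S` killed by the rows in `R`. -/
def Ev {n : ℕ} (S R : Finset (Fin n)) (ω : Config n) : Prop :=
  ∃ v : Fin n → ℝ, (∀ j, v j ≠ 0 ↔ j ∈ S) ∧ signMatrix ω *ᵥ v = 0 ∧
    ∀ w : Fin n → ℝ, (∀ j, j ∉ S → w j = 0) → (∀ r ∈ R, (signMatrix ω *ᵥ w) r = 0) →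
      ∃ c : ℝ, w = c • v

lemma ev_rigid {n : ℕ} {S R : Finset (Fin n)} {s0 : Fin n} (hs0 : s0 ∈ S)
    {ω ω' : Config n} (h : Ev S R ω) (h' : Ev S R ω')
    (hag : ∀ p, p ∉ (univ \ (R ∪ S)).image (fun i => s(i, s0)) → ω p = ω' p) : ω = ω' := by
  obtain ⟨v, hvS, hv0, hspan⟩ := h
  obtain ⟨v', hvS', hv0', -⟩ := h'
  -- entries indexed by R × S agree
  have hRS : ∀ r ∈ R, ∀ s ∈ S, signMatrix ω r s = signMatrix ω' r s := by
    intro r hr s hs
    rw [signMatrix_apply, signMatrix_apply, hag]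
    intro hmem
    obtain ⟨i, hi, heq⟩ := Finset.mem_image.mp hmem
    have hi' : i ∉ R ∧ i ∉ S := by
      simpa [not_or] using hi
    rcases Sym2.eq_iff.mp heq with ⟨h1, h2⟩ | ⟨h1, h2⟩
    · exact hi'.1 (h1 ▸ hr)
    · exact hi'.2 (h1 ▸ hs)
  -- the other kernel vector is a multiple of the first
  have hv'0 : ∀ j, j ∉ S → v' j = 0 := by
    intro j hj
    by_contra hne
    exact hj ((hvS' j).mp hne)
  have hvv0 : ∀ j, j ∉ S → v j = 0 := by
    intro j hj
    by_contra hne
    exact hj ((hvS j).mp hne)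
  have hRrow : ∀ r ∈ R, (signMatrix ω *ᵥ v') r = 0 := by
    intro r hr
    have h0 : (signMatrix ω' *ᵥ v') r = 0 := by rw [hv0']; rfl
    rw [← h0]
    simp only [Matrix.mulVec, dotProduct]
    apply Finset.sum_congr rfl
    intro j _
    by_cases hj : j ∈ S
    · rw [hRS r hr j hj]
    · rw [hv'0 j hj]; simp
  obtain ⟨c, hc⟩ := hspan v' hv'0 hRrow
  have hc0 : c ≠ 0 := by
    intro hc0
    have h1 : v' s0 = 0 := by rw [hc, hc0]; simp
    exact (hvS' s0).mpr hs0 h1
  have hv0'' : signMatrix ω' *ᵥ v = 0 := by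
    have : c • (signMatrix ω' *ᵥ v) = 0 := by
      rw [← Matrix.mulVec_smul, ← hc, hv0']
    exact (smul_eq_zero.mp this).resolve_left hc0
  funext p
  by_cases hp : p ∈ (univ \ (R ∪ S)).image (fun i => s(i, s0))
  · obtain ⟨i, hi, rfl⟩ := Finset.mem_image.mp hp
    have hi' : i ∉ R ∧ i ∉ S := by
      simpa [not_or] using hi
    apply eq_of_signMatrix_eq
    have h1 : (signMatrix ω *ᵥ v) i = 0 := by rw [hv0]; rfl
    have h2 : (signMatrix ω' *ᵥ v) i = 0 := by rw [hv0'']; rfl
    have h3 : ∑ j, (signMatrix ω i j - signMatrix ω' i j) * v j = 0 := by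
      simp only [Matrix.mulVec, dotProduct] at h1 h2
      simp only [sub_mul, Finset.sum_sub_distrib, h1, h2, sub_zero]
    rw [Finset.sum_eq_single s0] at h3
    · have h4 : v s0 ≠ 0 := (hvS s0).mpr hs0
      have h5 := (mul_eq_zero.mp h3).resolve_right h4
      linarith
    · intro j _ hj
      by_cases hjS : j ∈ S
      · have : signMatrix ω i j = signMatrix ω' i j := by
          rw [signMatrix_apply, signMatrix_apply, hag]
          intro hmem
          obtain ⟨i', hi'', heq⟩ := Finset.mem_image.mp hmem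
          rcases Sym2.eq_iff.mp heq with ⟨h1, h2⟩ | ⟨h1, h2⟩
          · exact hj h2.symm
          · exact hi'.2 (h2 ▸ hs0)
        rw [this]; simp
      · rw [hvv0 j hjS]; simp
    · intro h; exact absurd (mem_univ _) h
  · exact hag p hp

open Classical in
lemma ev_card {n : ℕ} {S R : Finset (Fin n)} (hS : S.Nonempty) :
    (univ.filter (fun ω : Config n => Ev S R ω)).card * 2 ^ (univ \ (R ∪ S)).card
      ≤ 2 ^ Fintype.card (Sym2 (Fin n)) := by
  obtain ⟨s0, hs0⟩ := hS
  have hinj : Function.Injective (fun i : Fin n => s(i, s0)) := by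
    intro i i' h
    exact Sym2.congr_left.mp h
  have hcard : ((univ \ (R ∪ S)).image (fun i => s(i, s0))).card = (univ \ (R ∪ S)).card :=
    Finset.card_image_of_injective _ hinj
  rw [← hcard]
  apply card_mul_two_pow_le
  intro ω hω ω' hω' hag
  exact ev_rigid hs0 (Finset.mem_filter.mp hω).2 (Finset.mem_filter.mp hω').2 hag

end Vale.Agent.P160
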