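import Vale.Agent.P160.Flip

namespace Vale.Agent.P160

open Finset Matrix

/-- Row selection: among finitely many vectors in a coordinate space `S → ℝ`, at most `|S|` of them
span all the others. -/
lemma exists_rows {ι : Type*} [Fintype ι] {n : ℕ} (S : Finset (Fin n)) (row : ι → (S → ℝ)) :
    ∃ R : Finset ι, R.card ≤ S.card ∧
      ∀ i, row i ∈ Submodule.span ℝ (row '' (R : Set ι)) := by
  classical
  obtain ⟨b, hbsub, hbspan, hbli⟩ := exists_linearIndependent ℝ (Set.range row)
  have hfin : b.Finite := (Set.finite_range row).subset hbsub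
  have : Fintype b := hfin.fintype
  have hcard : Fintype.card b ≤ S.card := by
    have h1 := hbli.fintype_card_le_finrank
    rwa [Module.finrank_fintype_fun_eq_card, Fintype.card_coe] at h1
  choose f hf using (fun x : b => hbsub x.2)
  refine ⟨univ.image f, Finset.card_image_le.trans (by simpa using hcard), ?_⟩
  intro i
  have h1 : row i ∈ Submodule.span ℝ (Set.range row) := Submodule.subset_span ⟨i, rfl⟩
  rw [← hbspan] at h1
  refine Submodule.span_mono ?_ h1
  intro x hx
  refine ⟨f ⟨x, hx⟩, ?_, hf ⟨x, hx⟩⟩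
  simp

lemma suppCard_eq {n : ℕ} (v : Fin n → ℝ) [DecidablePred fun i => v i ≠ 0] :
    suppCard v = (univ.filter fun i => v i ≠ 0).card := by
  unfold suppCard
  congr

lemma exists_ev {n m : ℕ} {ω : Config n} (h : HasSparseKernel ω m) :
    ∃ S R : Finset (Fin n), S.Nonempty ∧ S.card ≤ m ∧ R.card ≤ m ∧ Ev S R ω := by
  classical
  -- a kernel vector of minimal support
  have hex : ∃ k, ∃ v : Fin n → ℝ, v ≠ 0 ∧ signMatrix ω *ᵥ v = 0 ∧ suppCard v = k := by
    obtain ⟨v, h1, h2, -⟩ := h
    exact ⟨_, v, h1, h2, rfl⟩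
  obtain ⟨v, hv1, hv2, hvk⟩ := Nat.find_spec hex
  have hmin : ∀ w : Fin n → ℝ, w ≠ 0 → signMatrix ω *ᵥ w = 0 → suppCard v ≤ suppCard w := by
    intro w hw1 hw2
    rw [hvk]
    exact Nat.find_min' hex ⟨w, hw1, hw2, rfl⟩
  have hvm : suppCard v ≤ m := by
    obtain ⟨w, h1, h2, h3⟩ := h
    exact (hmin w h1 h2).trans h3
  set S : Finset (Fin n) := univ.filter (fun i => v i ≠ 0) with hS
  have hScard : S.card = suppCard v := (suppCard_eq v).symm
  have hmem : ∀ j, v j ≠ 0 ↔ j ∈ S := by
    intro j; simp [hS]
  have hne : S.Nonempty := by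
    by_contra hcon
    rw [Finset.not_nonempty_iff_eq_empty] at hcon
    apply hv1
    funext j
    by_contra hj
    have := (hmem j).mp hj
    rw [hcon] at this
    simp at this
  obtain ⟨s0, hs0⟩ := hne
  -- every kernel vector supported in S is a multiple of v
  have hker : ∀ w : Fin n → ℝ, (∀ j, j ∉ S → w j = 0) → signMatrix ω *ᵥ w = 0 →
      ∃ c : ℝ, w = c • v := by
    intro w hwS hw0
    have hvs0 : v s0 ≠ 0 := (hmem s0).mpr hs0
    refine ⟨w s0 / v s0, ?_⟩
    by_contra hcon
    set u : Fin n → ℝ := w - (w s0 / v s0) • v with hu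
    have hune : u ≠ 0 := by
      intro h0
      apply hcon
      exact sub_eq_zero.mp h0
    have hu0 : signMatrix ω *ᵥ u = 0 := by
      rw [hu, Matrix.mulVec_sub, Matrix.mulVec_smul, hw0, hv2]
      simp
    have h1 := hmin u hune hu0
    have hsub : (univ.filter fun i => u i ≠ 0) ⊂ S := by
      rw [Finset.ssubset_iff_of_subset]
      · refine ⟨s0, hs0, ?_⟩
        simp only [Finset.mem_filter, mem_univ, true_and, not_not]
        simp only [hu, Pi.sub_apply, Pi.smul_apply, smul_eq_mul]
        field_simp
        ring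
      · intro j hj
        simp only [Finset.mem_filter, mem_univ, true_and] at hj
        by_contra hjS
        apply hj
        simp only [hu, Pi.sub_apply, Pi.smul_apply, smul_eq_mul]
        rw [hwS j hjS]
        have : v j = 0 := by
          by_contra hvj
          exact hjS ((hmem j).mp hvj)
        rw [this]; simp
    have h2 := Finset.card_lt_card hsub
    rw [← suppCard_eq u] at h2
    omega
  -- select the rows
  obtain ⟨R, hRcard, hRspan⟩ :=
    exists_rows (ι := Fin n) S (fun i (s : S) => signMatrix ω i s)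
  refine ⟨S, R, ⟨s0, hs0⟩, hScard ▸ hvm, hRcard.trans (hScard ▸ hvm), v, hmem, hv2, ?_⟩
  intro w hwS hwR
  apply hker w hwS
  -- a vector killed by the selected rows is killed by all rows
  have hdot : ∀ i, (signMatrix ω *ᵥ w) i = ∑ s : S, signMatrix ω i s * w s := by
    intro i
    simp only [Matrix.mulVec, dotProduct]
    rw [Finset.sum_coe_sort S (fun j => signMatrix ω i j * w j)]
    apply (Finset.sum_subset (Finset.subset_univ S) _).symm
    intro j _ hj
    rw [hwS j hj]; simp
  let φ : (S → ℝ) →ₗ[ℝ] ℝ :=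
    { toFun := fun x => ∑ s : S, x s * w s
      map_add' := by
        intro x y
        simp only [Pi.add_apply, add_mul, Finset.sum_add_distrib]
      map_smul' := by
        intro c x
        simp only [Pi.smul_apply, smul_eq_mul, RingHom.id_apply, Finset.mul_sum, mul_assoc] }
  have hle : Submodule.span ℝ ((fun i (s : S) => signMatrix ω i s) '' (R : Set (Fin n)))
      ≤ LinearMap.ker φ := by
    rw [Submodule.span_le]
    rintro _ ⟨r, hr, rfl⟩
    have := hwR r hr
    rw [hdot r] at this
    exact this
  funext i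
  have h1 := hle (hRspan i)
  have h2 : ∑ s : S, signMatrix ω i s * w s = 0 := h1
  rw [hdot i, h2]; rfl

end Vale.Agent.P160
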